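import Vale.Agent.P168.Sync.Basic

/-!
P168: observables made of trees of overlaps, and the identity of positions on rectangles.
-/

namespace Vale.Agent.P168

open MeasureTheory ProbabilityTheory Finset

variable {L : Lim} {X : ℕ → ℕ → Cube → ℝ} {n k : ℕ} {f g : Cube → ℝ}

namespace Obs

lemma measurable_fun (hf : Obs n f) : Measurable f := by
  obtain ⟨g, hg, rfl⟩ := hf.fac
  exact hg.comp (measurable_pi_lambda _ fun i => measurable_pi_apply _)

lemma integrable_fun (hf : Obs n f) (μ : Measure Cube) [IsFiniteMeasure μ] : Integrable f μ := by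
  obtain ⟨D, hD⟩ := hf.bdd
  exact Integrable.mono' (integrable_const D) hf.measurable_fun.aestronglyMeasurable
    (Filter.Eventually.of_forall fun ω => (Real.norm_eq_abs _).trans_le (hD ω))

lemma mul_fun (hf : Obs n f) (hg : Obs n g) : Obs n fun ω => f ω * g ω := by
  obtain ⟨u, hu, rfl⟩ := hf.fac
  obtain ⟨v, hv, rfl⟩ := hg.fac
  obtain ⟨D, hD⟩ := hf.bdd
  obtain ⟨E, hE⟩ := hg.bdd
  refine ⟨⟨fun z => u z * v z, hu.mul hv, rfl⟩, |D| * |E|, fun ω => ?_⟩
  rw [abs_mul]
  exact mul_le_mul ((hD ω).trans (le_abs_self D)) ((hE ω).trans (le_abs_self E)) (abs_nonneg _)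
    (abs_nonneg _)

lemma const_fun (n : ℕ) (c : ℝ) : Obs n fun _ => c :=
  ⟨⟨fun _ => c, measurable_const, rfl⟩, |c|, fun _ => le_rfl⟩

lemma add_fun (hf : Obs n f) (c : ℝ) : Obs n fun ω => f ω + c := by
  obtain ⟨u, hu, rfl⟩ := hf.fac
  obtain ⟨D, hD⟩ := hf.bdd
  exact ⟨⟨fun z => u z + c, hu.add_const c, rfl⟩, D + |c|,
    fun ω => (abs_add_le _ _).trans (add_le_add (hD ω) le_rfl)⟩

end Obs

lemma GGTree.measurable_entry' (hX : GGTree L X) (a b : ℕ) : Measurable (X a b) :=
  (hX.obs a b (max a b + 1) (by omega) (by omega)).measurable_fun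

lemma GGTree.measurable_matS' (hX : GGTree L X) (k : ℕ) : Measurable (matS X k) :=
  measurable_pi_lambda _ fun a => measurable_pi_lambda _ fun b => by
    simp only [matS]
    split_ifs
    exacts [measurable_const, hX.measurable_entry' a b]

lemma GGTree.measurable_posK' (hX : GGTree L X) (k l : ℕ) : Measurable (posK X k l) :=
  measurable_pi_lambda _ fun a => hX.measurable_entry' l a

/-- Bounded functions of the matrix of the first replicas are observables. -/
lemma GGTree.obs_matS' (hX : GGTree L X) (hkn : k ≤ n) {φ : (Fin k → Fin k → ℝ) → ℝ}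
    (hφ : Measurable φ) {C : ℝ} (hC : ∀ M, |φ M| ≤ C) : Obs n fun ω => φ (matS X k ω) := by
  choose g hg hfac using fun a b : Fin k =>
    (hX.obs a b n (lt_of_lt_of_le a.2 hkn) (lt_of_lt_of_le b.2 hkn)).fac
  refine ⟨⟨fun z => φ fun a b => if a = b then 1 else g a b z, hφ.comp
    (measurable_pi_lambda _ fun a => measurable_pi_lambda _ fun b => ?_), ?_⟩, C, fun ω => hC _⟩
  · by_cases h : a = b
    · simp [h]
    · simp only [if_neg h]; exact hg a b
  · funext ω
    show φ (matS X k ω) = φ fun a b => if a = b then 1 else g a b (restr n ω)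
    congr 1
    funext a b
    by_cases h : a = b
    · simp [matS, h]
    · simp only [matS, if_neg h]
      exact congr_fun (hfac a b) ω

/-- The indicator of a set. -/
noncomputable def ind1 {α : Type} (s : Set α) : α → ℝ := s.indicator fun _ => 1

lemma abs_ind1_le {α : Type} (s : Set α) (x : α) : |ind1 s x| ≤ 1 := by
  by_cases h : x ∈ s <;> simp [ind1, h]

lemma measurable_ind1 {α : Type} [MeasurableSpace α] {s : Set α} (hs : MeasurableSet s) :
    Measurable (ind1 s) := measurable_const.indicator hs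

/-- A box of positions over a set of matrices. -/
def box (Cs : Set (Fin k → Fin k → ℝ)) (t : Fin k → ℝ) : Set (Place k) :=
  Cs ×ˢ Set.pi Set.univ fun a => Set.Ici (t a)

lemma measurableSet_box {Cs : Set (Fin k → Fin k → ℝ)} (hCs : MeasurableSet Cs) (t : Fin k → ℝ) :
    MeasurableSet (box Cs t) :=
  hCs.prod (MeasurableSet.univ_pi fun _ => measurableSet_Ici)

/-- On a box the identity holds with some function of the matrix in place of the conditional law. -/
lemma GGTree.exists_box_fun (hX : GGTree L X) (hk : 1 ≤ k) {Cs : Set (Fin k → Fin k → ℝ)}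
    (hCs : MeasurableSet Cs) (t : Fin k → ℝ) :
    ∃ Z : (Fin k → Fin k → ℝ) → ℝ, Measurable Z ∧ (∃ D, ∀ M, |Z M| ≤ D) ∧
      ∀ n, k ≤ n → ∀ f, Obs n f →
        (n : ℝ) * ∫ ω, f ω * ind1 (box Cs t) (placeK X k n ω) ∂L.P =
          ∑ l ∈ Ico k n, ∫ ω, f ω * ind1 (box Cs t) (placeK X k l ω) ∂L.P +
            ∫ ω, f ω * Z (matS X k ω) ∂L.P := by
  classical
  have : Nonempty (Fin k) := ⟨⟨0, hk⟩⟩
  obtain ⟨s, -, hs⟩ := Finset.exists_max_image Finset.univ t Finset.univ_nonempty
  set ψ : ℝ → ℝ := ind1 (Set.Ici (t s)) with hψ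
  have hψm : Measurable ψ := measurable_ind1 measurableSet_Ici
  set low : Set (Fin k → Fin k → ℝ) := Cs ∩ {M | ∀ a, a ≠ s → t a ≤ M s a}
  have hlow : MeasurableSet low := hCs.inter (by
    rw [Set.ofPred_forall]
    exact MeasurableSet.iInter fun a => MeasurableSet.imp (MeasurableSet.const _)
      (measurableSet_le measurable_const
        ((measurable_pi_apply a).comp (measurable_pi_apply s))))
  set c := ∫ ω, ψ (X 0 1 ω) ∂L.P
  have hbox : ∀ l, k ≤ l → ∀ᵐ ω ∂L.P,
      ind1 (box Cs t) (placeK X k l ω) = ind1 low (matS X k ω) * ψ (X s l ω) := by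
    intro l hl
    have hne : ∀ a : Fin k, (a : ℕ) ≠ l := fun a => (lt_of_lt_of_le a.2 hl).ne
    have h1 : ∀ᵐ ω ∂L.P, ∀ a : Fin k, a ≠ s →
        min (X l s ω) (X s a ω) ≤ X l a ω ∧ min (X s l ω) (X l a ω) ≤ X s a ω := by
      refine ae_all_iff.2 fun a => ?_
      rcases eq_or_ne a s with rfl | has
      · exact Filter.Eventually.of_forall fun ω h => absurd rfl h
      · have has' : (s : ℕ) ≠ a := fun h => has (Fin.ext h.symm)
        filter_upwards [hX.ultra l s a (hne s).symm has' (hne a).symm,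
          hX.ultra s l a (hne s) (hne a).symm has'] with ω h h' _ using ⟨h, h'⟩
    filter_upwards [h1, hX.symm s l] with ω hu hsym
    have key : placeK X k l ω ∈ box Cs t ↔ matS X k ω ∈ low ∧ t s ≤ X s l ω := by
      simp only [box, placeK, posK, low, Set.mem_prod, Set.mem_inter_iff, Set.mem_ofPred_eq,
        Set.mem_univ_pi, Set.mem_Ici]
      refine ⟨fun h => ⟨⟨h.1, fun a ha => ?_⟩, hsym ▸ h.2 s⟩, fun h => ⟨h.1.1, fun a => ?_⟩⟩
      · rw [matS, if_neg (Ne.symm ha)]
        exact (le_min ((hs a (mem_univ a)).trans (hsym ▸ h.2 s)) (h.2 a)).trans (hu a ha).2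
      · rcases eq_or_ne a s with rfl | ha
        · rw [← hsym]; exact h.2
        · have := h.1.2 a ha
          rw [matS, if_neg (Ne.symm ha)] at this
          exact (le_min (hsym ▸ (hs a (mem_univ a)).trans h.2) this).trans (hu a ha).1
    simp only [hψ, ind1, Set.indicator_apply, Set.mem_Ici]
    split_ifs <;> simp <;> tauto
  refine ⟨fun M => ind1 low M * (c + ∑ a ∈ univ.erase s, ψ (M s a)), ?_, ?_, fun n hkn f hf => ?_⟩
  · exact (measurable_ind1 hlow).mul (measurable_const.add (Finset.measurable_sum _ fun a _ =>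
      hψm.comp ((measurable_pi_apply a).comp (measurable_pi_apply s))))
  · refine ⟨|c| + k, fun M => ?_⟩
    rw [abs_mul]
    calc |ind1 low M| * |c + ∑ a ∈ univ.erase s, ψ (M s a)| ≤ 1 * (|c| + k) := by
          refine mul_le_mul (abs_ind1_le _ _) ((abs_add_le _ _).trans (add_le_add le_rfl ?_))
            (abs_nonneg _) zero_le_one
          refine (abs_sum_le_sum_abs _ _).trans ((sum_le_sum fun a _ => abs_ind1_le _ _).trans ?_)
          simp only [sum_const, nsmul_eq_mul, mul_one]
          exact_mod_cast (card_le_univ _).trans (Fintype.card_fin k).le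
      _ = _ := one_mul _
  · have hf' : Obs n fun ω => f ω * ind1 low (matS X k ω) :=
      hf.mul_fun (hX.obs_matS' hkn (measurable_ind1 hlow) (abs_ind1_le low))
    have hbox' : ∀ l, k ≤ l → ∫ ω, f ω * ind1 (box Cs t) (placeK X k l ω) ∂L.P =
        ∫ ω, f ω * ind1 low (matS X k ω) * ψ (X s l ω) ∂L.P := fun l hl =>
      integral_congr_ae ((hbox l hl).mono fun ω h => by simp only [h]; ring)
    have hgg := hX.gg n _ hf' ψ hψm ⟨1, abs_ind1_le _⟩ s (lt_of_lt_of_le s.2 hkn)
    rw [hbox' n hkn, Finset.sum_congr rfl fun l hl => hbox' l (Finset.mem_Ico.1 hl).1, hgg]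
    have hi : ∀ a : ℕ, Integrable (fun ω => f ω * ind1 low (matS X k ω) * ψ (X s a ω)) L.P := fun a =>
      Integrable.mono' ((hf'.integrable_fun L.P).abs)
        (hf'.measurable_fun.mul (hψm.comp (hX.measurable_entry' s a))).aestronglyMeasurable
        (Filter.Eventually.of_forall fun ω => by
          rw [Real.norm_eq_abs, abs_mul]
          exact mul_le_of_le_one_right (abs_nonneg _) (abs_ind1_le _ _))
    have hi' : ∀ a ∈ univ.erase s,
        Integrable (fun ω => f ω * ind1 low (matS X k ω) * ψ (matS X k ω s a)) L.P := fun a ha => by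
      simpa [matS, (Finset.ne_of_mem_erase ha).symm] using hi a
    have hsplit : ((range n).erase (s : ℕ)) =
        ((univ.erase s).map Fin.valEmbedding) ∪ Ico k n := by
      ext a
      simp only [mem_erase, mem_range, mem_union, mem_map, mem_univ, and_true, Fin.valEmbedding_apply,
        mem_Ico]
      constructor
      · rintro ⟨ha, han⟩
        rcases lt_or_ge a k with h | h
        · exact Or.inl ⟨⟨a, h⟩, fun e => ha (by rw [← e]), rfl⟩
        · exact Or.inr ⟨h, han⟩
      · rintro (⟨b, hb, rfl⟩ | ⟨h, han⟩)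
        · exact ⟨fun e => hb (Fin.ext e), lt_of_lt_of_le b.2 hkn⟩
        · exact ⟨fun e => by omega, han⟩
    have hdis : Disjoint ((univ.erase s).map Fin.valEmbedding) (Ico k n) := by
      refine Finset.disjoint_left.2 fun a ha ha' => ?_
      obtain ⟨b, -, rfl⟩ := Finset.mem_map.1 ha
      have := (Finset.mem_Ico.1 ha').1
      simp only [Fin.valEmbedding_apply] at this
      omega
    rw [hsplit, Finset.sum_union hdis, Finset.sum_map]
    simp only [← mul_assoc, mul_add, Finset.mul_sum]
    rw [integral_add ((hf'.integrable_fun L.P).mul_const c) (integrable_finsetSum _ hi'),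
      integral_finsetSum _ hi', integral_mul_const]
    have e : ∀ a ∈ univ.erase s, ∫ ω, f ω * ind1 low (matS X k ω) * ψ (X s (Fin.valEmbedding a) ω) ∂L.P =
        ∫ ω, f ω * ind1 low (matS X k ω) * ψ (matS X k ω s a) ∂L.P := fun a ha => by
      simp [matS, (Finset.ne_of_mem_erase ha).symm]
    rw [Finset.sum_congr rfl e]
    ring

end Vale.Agent.P168
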